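import Vale.Agent.P146.H30.NeK
import Vale.Agent.P146.H418.Par
import Vale.Agent.P146.H516.Ap2

/-!
# P146: the near end for the full set of sites

* `rr_le_CC`: the pair number is at most the second moment of the overlap;
* `kw_par1`: the window `KW` implies `H516.Par1`;
* `rr_kw`: `rr` from the a priori bound, on the window;
* `ne_end`: at the times `T ∈ [n^(-37q) y⁴, n^(-70q) y²]`, from the set of sites with
  `2 ⌈n^(1-40q) T⌉` hidden sites to the full set of sites.
-/

open MeasureTheory ProbabilityTheory Filter Topology Set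

namespace Vale.Agent.P146.H30

open Vale.Agent.P157.Lv hiding Dep
open Vale.Agent.P146.H425 Vale.Agent.P146.H646 Vale.Agent.P146.H196
  Vale.Agent.P146.H475 Vale.Agent.P146.H325 Vale.Agent.P146.H317 Vale.Agent.P146.H615
  Vale.Agent.P146.H418 Vale.Agent.P146.H9 Vale.Agent.P146.H529 Vale.Agent.P146.H347
  Vale.Agent.P146.H412 Vale.Agent.P146.H119 Vale.Agent.P146.H470

set_option linter.unusedSectionVars false

lemma card_Sn {n m : ℕ} (h : m ≤ n) : (Sn n m).card = n - m := by
  unfold Sn
  have e : (Finset.univ.filter fun i : Fin n => (i : ℕ) + m < n) =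
      Finset.univ.filter fun i : Fin n => (i : ℕ) < n - m := by
    ext i
    simp only [Finset.mem_filter, Finset.mem_univ, true_and]
    omega
  rw [e, Fin.card_filter_val_lt]
  omega

section can

variable {L : Law} (hl : 0 < L.lam) (hη : 0 ≤ L.η)
include hl hη

/-- the pair number is at most the second moment of the overlap -/
theorem rr_le_CC (S : Finset (Fin L.n)) (t u : ℝ) : L.rr S t u ≤ L.ex' t u (CC L S t u) := by
  have hw := wtL hl hη t u
  have hb : BM fun z => ∑ p ∈ H119.ps S, L.cx' S t u (fun w => SkS p w.2) z ^ 2 :=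
    bm_sum_sq _ fun p _ => hw.bm_cx _ (bmA L.b (H418.cb t) (cf L.vp u) L.s hl hη L.c (H347.bm_SkS p))
  have e1 : L.rr S t u = L.ex' t u fun z => 2 / (L.n : ℝ) ^ 2 *
      ∑ p ∈ H119.ps S, L.cx' S t u (fun w => SkS p w.2) z ^ 2 := by
    unfold Law.rr Law.pp
    rw [mul_div_right_comm]
    exact (H615.ex_cmul _ _).symm
  rw [e1]
  refine ex_mono hw (bcm _ hb) (bm_CC hl hη S t u) fun z => ?_
  rw [CC_eq hl hη]
  show _ ≤ mo S 2 _ / (L.n : ℝ) ^ 2
  rw [mo_prs hl hη L.c L.x L.b (H418.cb t) (cf L.vp u) L.s (Kt L.n S) S z, div_mul_eq_mul_div]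
  gcongr
  have h0 : (0 : ℝ) ≤ S.card := Nat.cast_nonneg _
  have h1 : ∑ p ∈ H119.ps S, L.cx' S t u (fun w => SkS p w.2) z ^ 2 =
      ∑ q ∈ prs S, cxS L.n L.b (H418.cb t) (cf L.vp u) L.s L.η L.lam L.c L.x (Kt L.n S)
        (av2 L.b (H418.cb t) (cf L.vp u) L.s L.η L.lam L.c q) z ^ 2 := rfl
  rw [h1]
  linarith

end can

/-! ### the window -/

section kw

variable {a0 b₁ q A b : ℝ}

/-- **The window `KW` gives `Par1`.** -/
theorem kw_par1 (hq : 0 < q) (hb : 0 < b) (ha0 : a0 ≤ 1 / 6) (hb₁ : 100 * q < b₁) (hA : 1 ≤ A) :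
    ∀ᶠ n : ℕ in atTop, ∀ y V al s lam η : ℝ, KW a0 b₁ q A b n y V al s lam η →
      H516.Par1 b (q / 2) (999 * q) n (V - s ^ 2) s lam η y V al ∧ y ^ 2 * b ^ 2 ≤ 4 ∧
      0 < V - s ^ 2 ∧ (n : ℝ) ^ (-(37 * q)) * y ^ 4 ≤ V - s ^ 2 := by
  filter_upwards [ev_log (θ := q) hq (10 * Real.log A + 10 * |Real.log b| + 10),
    eventually_gt_atTop 1] with n e1 hn
  intro y V al s lam η h
  have hn0 : (0 : ℝ) < n := by exact_mod_cast (by omega : 0 < n)
  have hn1 : (1 : ℝ) < n := by exact_mod_cast hn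
  have hL : 0 < Real.log n := Real.log_pos hn1
  have hA0 : 0 < A := by linarith
  have hlA : 0 ≤ Real.log A := Real.log_nonneg hA
  have hlb := neg_abs_le (Real.log b)
  have hlb' := le_abs_self (Real.log b)
  have hab := abs_nonneg (Real.log b)
  have hy := h.y0
  have hV := h.V0
  have hs := h.s0
  have hη := h.η0
  have hlam := h.l0
  have g1 := Real.log_le_log (by positivity) h.yl
  have g2 := Real.log_le_log hy h.yu
  have g3 := Real.log_le_log (by positivity) h.Vl
  have g4 := Real.log_le_log hV h.Vu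
  have g5 := Real.log_le_log (by positivity) h.s2
  have g6 := Real.log_le_log hη h.η1
  have g7 := Real.log_le_log (by positivity) h.ll
  simp (disch := positivity) only [Real.log_mul, Real.log_rpow, Real.log_pow] at g1 g2 g3 g4 g5 g6 g7
  push_cast at g3 g4 g5
  have m1 : 100 * (q * Real.log n) < b₁ * Real.log n := by
    have := mul_lt_mul_of_pos_right hb₁ hL
    linarith
  have m2 : a0 * Real.log n ≤ 1 / 6 * Real.log n := mul_le_mul_of_nonneg_right ha0 hL.le
  have m3 : 0 < q * Real.log n := mul_pos hq hL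
  have c2 : Real.log 2 ≤ 1 := by
    have := Real.log_le_sub_one_of_pos (x := 2) two_pos
    linarith
  have c3 : Real.log 3 ≤ 2 := by
    have := Real.log_le_sub_one_of_pos (x := 3) (by norm_num)
    linarith
  have hs2 : s ^ 2 ≤ V / 2 := by
    refine le_of_log (by positivity) (by positivity) ?_
    simp (disch := positivity) only [Real.log_div, Real.log_pow]
    push_cast
    linarith
  have hy1 : y ≤ 1 := by
    refine le_of_log hy one_pos ?_
    rw [Real.log_one]
    linarith
  have hη1 : η ≤ 1 / 3 := by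
    refine le_of_log hη (by norm_num) ?_
    rw [Real.log_div one_ne_zero (by norm_num), Real.log_one]
    linarith
  have hll : 1 ≤ y * (lam * η) := by
    refine le_trans ?_ h.ll
    exact Real.one_le_rpow hn1.le hq.le
  have hlη : 1 ≤ lam * η := by
    have h0 : 0 < lam * η := by positivity
    nlinarith
  refine ⟨⟨by linarith, by ring, ?_, hs, ?_, hη, hη1, hlη, ?_, ?_, h.ap, h.sg⟩, ?_, by linarith, ?_⟩
  · refine le_of_log hV one_pos ?_
    rw [Real.log_one]
    linarith
  · nlinarith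
  · refine le_of_log (by positivity) hy ?_
    rw [Real.log_rpow hn0]
    linarith
  · have h2 : y ≤ 1 / 2 := by
      refine le_of_log hy (by norm_num) ?_
      rw [Real.log_div one_ne_zero two_ne_zero, Real.log_one]
      linarith
    linarith
  · refine le_of_log (by positivity) (by norm_num) ?_
    simp (disch := positivity) only [Real.log_mul, Real.log_pow]
    push_cast
    have : 0 ≤ Real.log 4 := Real.log_nonneg (by norm_num)
    linarith
  · have h2 : (n : ℝ) ^ (-(37 * q)) * y ^ 4 ≤ V / 2 := by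
      refine le_of_log (by positivity) (by positivity) ?_
      simp (disch := positivity) only [Real.log_mul, Real.log_div, Real.log_rpow, Real.log_pow]
      push_cast
      linarith
    linarith

/-- **The a priori bound of the pair number on the window.** -/
theorem rr_kw (hq : 0 < q) (hb : 0 < b) (ha0 : a0 ≤ 1 / 6) (hb₁ : 100 * q < b₁) (hA : 1 ≤ A) :
    ∀ᶠ n : ℕ in atTop, ∀ y V al s lam η : ℝ, KW a0 b₁ q A b n y V al s lam η →
      ∀ t : ℝ, 0 ≤ t → t < 1 → ∀ u ∈ Icc (0 : ℝ) 1, ∀ S : Finset (Fin n),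
      (lawOf n b y V al s lam η).rr S t u ≤ 12 * ((n : ℝ) ^ q * y ^ 4) / (b ^ 2 * (1 - t)) := by
  filter_upwards [kw_par1 hq hb ha0 hb₁ hA,
    H516.mom_ev1 (e := 999 * q) hb (by positivity) (by positivity : 0 ≤ q / 2)
      (by linarith : q / 2 < q)] with n h1 h2
  intro y V al s lam η h t ht0 ht1 u hu S
  obtain ⟨p1, p2, p3, -⟩ := h1 y V al s lam η h
  have h3 := h2 (V - s ^ 2) s lam η y V al p1 p2 t ht0 ht1 u hu S 1
  simp only [pow_one] at h3
  refine (rr_le_CC (L := lawOf n b y V al s lam η) h.l0 h.η0.le S t u).trans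
    (h3.trans (le_of_eq ?_))
  unfold Cp
  norm_num
  ring

/-- **The near end for the full set of sites.** -/
theorem ne_end (hq : 0 < q) (hb : 0 < b) (ha0 : a0 ≤ 1 / 6) (hb₁ : 100 * q < b₁) (hA : 1 ≤ A) :
    ∀ᶠ n : ℕ in atTop, ∀ y V al s lam η : ℝ, KW a0 b₁ q A b n y V al s lam η →
      ∀ T : ℝ, (n : ℝ) ^ (-(37 * q)) * y ^ 4 ≤ T → T ≤ (n : ℝ) ^ (-(70 * q)) * y ^ 2 →
      T * (lawOf n b y V al s lam η).rr (Sn n (2 * ⌈(n : ℝ) ^ (1 - 40 * q) * T⌉₊)) (1 - T / 2)
          (1 - (n : ℝ) ^ (-(37 * q)) * y ^ 4 / (V - s ^ 2)) ≤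
        1 / 2 * ((n : ℝ) ^ (-(37 * q)) * y ^ 4) →
      T * (lawOf n b y V al s lam η).rr Finset.univ (1 - T)
          (1 - (n : ℝ) ^ (-(37 * q)) * y ^ 4 / (V - s ^ 2)) ≤
        (n : ℝ) ^ (-(37 * q)) * y ^ 4 := by
  filter_upwards [kw_par1 hq hb ha0 hb₁ hA, rr_kw hq hb ha0 hb₁ hA,
    ev_log (θ := q) hq (10 * Real.log A + 10 * |Real.log b| + 100), eventually_gt_atTop 1]
    with n h1 h2 e1 hn
  intro y V al s lam η h T hT1 hT2 hg
  have hn0 : (0 : ℝ) < n := by exact_mod_cast (by omega : 0 < n)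
  have hn1 : (1 : ℝ) < n := by exact_mod_cast hn
  have hL : 0 < Real.log n := Real.log_pos hn1
  have hA0 : 0 < A := by linarith
  have hlA : 0 ≤ Real.log A := Real.log_nonneg hA
  have hlb := neg_abs_le (Real.log b)
  have hlb' := le_abs_self (Real.log b)
  have hab := abs_nonneg (Real.log b)
  obtain ⟨p1, p2, p3, p4⟩ := h1 y V al s lam η h
  have hy := h.y0
  have hV := h.V0
  have hs := h.s0
  have g1 := Real.log_le_log (by positivity) h.yl
  have g2 := Real.log_le_log hy h.yu
  have g4 := Real.log_le_log hV h.Vu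
  simp (disch := positivity) only [Real.log_mul, Real.log_rpow, Real.log_pow] at g1 g2 g4
  push_cast at g4
  have m1 : 100 * (q * Real.log n) < b₁ * Real.log n := by
    have := mul_lt_mul_of_pos_right hb₁ hL
    linarith
  have m2 : a0 * Real.log n ≤ 1 / 6 * Real.log n := mul_le_mul_of_nonneg_right ha0 hL.le
  have m3 : 0 < q * Real.log n := mul_pos hq hL
  set g : ℝ := (n : ℝ) ^ (-(37 * q)) * y ^ 4 with hgd
  have hg0 : 0 < g := by positivity
  have hlg : Real.log g = -(37 * q) * Real.log n + 4 * Real.log y := by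
    rw [hgd, Real.log_mul (by positivity) (by positivity), Real.log_rpow hn0, Real.log_pow]
    push_cast
    ring
  have hT0 : 0 < T := lt_of_lt_of_le hg0 hT1
  have g5 := Real.log_le_log hg0 hT1
  have g6 := Real.log_le_log hT0 hT2
  rw [hlg] at g5
  simp (disch := positivity) only [Real.log_mul, Real.log_rpow, Real.log_pow] at g6
  push_cast at g6
  have c2 : Real.log 2 ≤ 1 := by
    have := Real.log_le_sub_one_of_pos (x := 2) two_pos
    linarith
  have cl : ∀ k : ℕ, Real.log ((2 : ℝ) ^ k) ≤ k := fun k => by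
    rw [Real.log_pow]
    have : (0 : ℝ) ≤ k := Nat.cast_nonneg _
    nlinarith
  have hTle : T ≤ 1 := by
    refine le_of_log hT0 one_pos ?_
    rw [Real.log_one]
    linarith
  set vp := V - s ^ 2 with hvp
  set u := 1 - g / vp with hu
  have hu0 : 0 ≤ u := by
    rw [hu, sub_nonneg, div_le_one p3]
    exact p4
  have hu1 : u ≤ 1 := by
    rw [hu]
    have : 0 < g / vp := by positivity
    linarith
  -- the number of hidden sites
  set X : ℝ := (n : ℝ) ^ (1 - 40 * q) * T with hX
  have hX0 : 0 < X := by positivity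
  have hX1 : 1 ≤ X := by
    refine le_of_log one_pos hX0 ?_
    rw [Real.log_one, hX, Real.log_mul (by positivity) (by positivity), Real.log_rpow hn0]
    linarith
  set S := Sn n (2 * ⌈X⌉₊) with hS
  have hm : (n : ℝ) - S.card ≤ 4 * X := by
    have h3 : n - 2 * ⌈X⌉₊ ≤ S.card := by
      by_cases hc : 2 * ⌈X⌉₊ ≤ n
      · exact (card_Sn hc).ge
      · omega
    have h4 : (n : ℝ) ≤ S.card + 2 * (⌈X⌉₊ : ℝ) := by
      have : n ≤ S.card + 2 * ⌈X⌉₊ := by omega
      exact_mod_cast this
    have h5 := (Nat.ceil_lt_add_one hX0.le).le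
    linarith
  have hmn : ((n : ℝ) - S.card) / n ≤ 4 * ((n : ℝ) ^ (-(40 * q)) * T) := by
    rw [div_le_iff₀ hn0]
    refine hm.trans (le_of_eq ?_)
    have e : (n : ℝ) ^ (1 - 40 * q) = n * (n : ℝ) ^ (-(40 * q)) := by
      rw [sub_eq_add_neg, Real.rpow_add hn0, Real.rpow_one]
    rw [hX, e]
    ring
  have hr := h2 y V al s lam η h (1 - T / 2) (by linarith) (by linarith) u ⟨hu0, hu1⟩ Finset.univ
  have hr0 : 0 ≤ (lawOf n b y V al s lam η).rr Finset.univ (1 - T / 2) u := by
    unfold Law.rr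
    have := H698.Q2_nonneg (n := n) (b := b) (cB := H418.cb (1 - T / 2)) (cF := H418.cf vp u)
      (s := s) (c := cc n b s al) (x := y) h.l0 h.η0.le Finset.univ (Kset Finset.univ {true} {true})
    have h5 : 0 ≤ (lawOf n b y V al s lam η).pp Finset.univ (1 - T / 2) u := this
    positivity
  have hB := rr_bridge (lawOf n b y V al s lam η) h.l0 h.η0.le hy hb.ne' (by exact_mod_cast hn0)
    p3 S hT0.le hTle hu0 hu1
  refine hB.trans ?_
  have hd : 1 - (1 - T / 2) = T / 2 := by ring
  rw [hd] at hr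
  -- second term
  have t2 : 4 * (((n : ℝ) - S.card) / n) * (lawOf n b y V al s lam η).rr Finset.univ (1 - T / 2) u ≤
      1 / 4 * g := by
    have k1 : 4 * (((n : ℝ) - S.card) / n) *
        (lawOf n b y V al s lam η).rr Finset.univ (1 - T / 2) u ≤
        4 * (4 * ((n : ℝ) ^ (-(40 * q)) * T)) * (12 * ((n : ℝ) ^ q * y ^ 4) / (b ^ 2 * (T / 2))) := by
      refine mul_le_mul (by linarith) hr hr0 (by positivity)
    refine k1.trans ?_
    have e : 4 * (4 * ((n : ℝ) ^ (-(40 * q)) * T)) *
        (12 * ((n : ℝ) ^ q * y ^ 4) / (b ^ 2 * (T / 2))) =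
        384 * ((n : ℝ) ^ (-(40 * q)) * (n : ℝ) ^ q) * y ^ 4 / b ^ 2 := by
      field_simp
      ring
    rw [e]
    refine le_of_log (by positivity) (by positivity) ?_
    have c9 := cl 9
    have c384 : Real.log 384 ≤ 9 := by
      refine (Real.log_le_log (by norm_num) (by norm_num : (384 : ℝ) ≤ 2 ^ 9)).trans ?_
      exact_mod_cast c9
    have e4 : Real.log (1 / 4 * g) = Real.log g - 2 * Real.log 2 := by
      rw [Real.log_mul (by norm_num) hg0.ne', show (1 / 4 : ℝ) = (2 ^ 2)⁻¹ by norm_num,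
        Real.log_inv, Real.log_pow]
      push_cast
      ring
    rw [e4, hlg]
    simp (disch := positivity) only [Real.log_mul, Real.log_div, Real.log_rpow, Real.log_pow]
    push_cast
    linarith
  -- third term
  have t3 : 4 * (((n : ℝ) - S.card) / n) * (u * vp / b ^ 2) ≤ 1 / 4 * g := by
    have k1 : 4 * (((n : ℝ) - S.card) / n) * (u * vp / b ^ 2) ≤
        4 * (4 * ((n : ℝ) ^ (-(40 * q)) * ((n : ℝ) ^ (-(70 * q)) * y ^ 2))) * (1 * V / b ^ 2) := by
      refine mul_le_mul (by gcongr; exact hmn.trans (by gcongr)) ?_ (by positivity) (by positivity)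
      have : vp ≤ V := by
        rw [hvp]
        have := sq_nonneg s
        linarith
      gcongr
    refine k1.trans (le_of_log (by positivity) (by positivity) ?_)
    have c16 : Real.log 4 ≤ 2 := by
      have := cl 2
      norm_num at this
      exact this
    have e4 : Real.log (1 / 4 * g) = Real.log g - 2 * Real.log 2 := by
      rw [Real.log_mul (by norm_num) hg0.ne', show (1 / 4 : ℝ) = (2 ^ 2)⁻¹ by norm_num,
        Real.log_inv, Real.log_pow]
      push_cast
      ring
    rw [e4, hlg, one_mul]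
    simp (disch := positivity) only [Real.log_mul, Real.log_div, Real.log_rpow, Real.log_pow]
    push_cast
    linarith
  have t1 : T * (lawOf n b y V al s lam η).rr S (1 - T / 2) u ≤ 1 / 2 * g := hg
  have t2' := t2
  have t3' := t3
  simp only [lawOf] at t1 t2' t3' ⊢
  linarith

end kw

end Vale.Agent.P146.H30
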