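import Vale.Agent.P146.H442.NeBr
import Vale.Agent.P146.H698.Kgrid
import Vale.Agent.P146.H418.Skel

/-!
# P146: the bridge between the full revealed set and hidden sites, canonical numbers

`pp_bridge`, `rr_bridge`: `H442.bridge` for the two-level numbers of `H418.Skel`.
-/

open MeasureTheory ProbabilityTheory

namespace Vale.Agent.P146.H30

open Vale.Agent.P157.Lv hiding Dep
open Vale.Agent.P146.H425 Vale.Agent.P146.H646
open Vale.Agent.P146.H196 Vale.Agent.P146.H246 Vale.Agent.P146.H347 Vale.Agent.P146.H325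
  Vale.Agent.P146.H816 Vale.Agent.P146.H119 Vale.Agent.P146.H475
open Vale.Agent.P146.H698 (cH ppc ffc)

set_option linter.unusedSectionVars false

section can

variable {n : ℕ} {b v s lam η c x t t' u : ℝ}

lemma sh_three0 (hv : 0 ≤ v) (h0 : 0 ≤ t) (h1 : t ≤ t') (h2 : t' ≤ 1) (hu0 : 0 ≤ u)
    (hu1 : u ≤ 1) : Sh (cH 1 t t') (H698.cf v u) {0} {true} 1 (√v) t u := by
  have hc := H698.sh_can (t := (0 : ℝ)) v le_rfl zero_le_one hu0 hu1
  refine ⟨?_, hc.totF, ?_, hc.shF⟩
  · have := H698.shr_H (v := 1) zero_le_one h0 h1 h2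
    unfold shr at this
    rw [this]
    ring
  · have := H698.shr_H0 (v := 1) zero_le_one h0 h1 h2
    unfold shr at this
    rw [this]
    ring

lemma sh_three1 (hv : 0 ≤ v) (h0 : 0 ≤ t) (h1 : t ≤ t') (h2 : t' ≤ 1) (hu0 : 0 ≤ u)
    (hu1 : u ≤ 1) : Sh (cH 1 t t') (H698.cf v u) {0, 1} {true} 1 (√v) t' u := by
  have hc := H698.sh_can (t := (0 : ℝ)) v le_rfl zero_le_one hu0 hu1
  refine ⟨?_, hc.totF, ?_, hc.shF⟩
  · have := H698.shr_H (v := 1) zero_le_one h0 h1 h2
    unfold shr at this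
    rw [this]
    ring
  · have := H698.shr_H1 (v := 1) zero_le_one h0 h1 h2
    unfold shr at this
    rw [this]
    ring

/-- the bridge, canonical numbers -/
theorem pp_bridge (hl : 0 < lam) (hη : 0 ≤ η) (hx : 0 < x) (hb : b ≠ 0) (hn : 0 < n)
    (hv : 0 < v) (S : Finset (Fin n)) (h0 : 0 ≤ t) (h1 : t ≤ t') (h2 : t' ≤ 1) (hu0 : 0 ≤ u)
    (hu1 : u ≤ 1) :
    (t' - t) * ppc n b v s lam η c x Finset.univ t u ≤
      (t' - t) * ppc n b v s lam η c x S t' u +
      2 * (n - S.card) / n * t' * ppc n b v s lam η c x Finset.univ t' u +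
      (n - S.card) / b ^ 2 * (u * v) * ffc n b v s lam η c x Finset.univ t' u := by
  have e0 := sh_three0 hv.le h0 h1 h2 hu0 hu1
  have e1 := sh_three1 hv.le h0 h1 h2 hu0 hu1
  have hB : ({0} : Finset (Fin 3)) ⊆ {0, 1} := by decide
  have h := H442.bridge (n := n) (b := b) (cB := cH 1 t t') (cF := H698.cf v u) (s := s) (c := c)
    (FL := {true}) (S := S) hl hη hx hb hn hB
  rw [H698.shr_H0 zero_le_one h0 h1 h2, H698.shr_H1 zero_le_one h0 h1 h2] at h
  have k0 : shr (H698.cf v u) {true} = u * v := by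
    have := e0.shF
    unfold shr
    rw [this, Real.sq_sqrt hv.le]
  rw [k0, H698.Q2_can hl hη hv e0 h0 (h1.trans h2) hu0 hu1,
    H698.Q2_can hl hη hv e1 (h0.trans h1) h2 hu0 hu1,
    H698.Q2_can hl hη hv e1 (h0.trans h1) h2 hu0 hu1,
    H698.Q1_can hl hη hv e1 (h0.trans h1) h2 hu0 hu1] at h
  simpa only [mul_one] using h

end can

section law

variable (L : H418.Law)

/-- **The bridge for the overlap numbers.** -/
theorem rr_bridge (hl : 0 < L.lam) (hη : 0 ≤ L.η) (hx : 0 < L.x) (hb : L.b ≠ 0) (hn : 0 < L.n)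
    (hv : 0 < L.vp) (S : Finset (Fin L.n)) {T u : ℝ} (h0 : 0 ≤ T) (h1 : T ≤ 1) (hu0 : 0 ≤ u)
    (hu1 : u ≤ 1) :
    T * L.rr Finset.univ (1 - T) u ≤ T * L.rr S (1 - T / 2) u +
      4 * ((L.n - S.card) / L.n) * L.rr Finset.univ (1 - T / 2) u +
      4 * ((L.n - S.card) / L.n) * (u * L.vp / L.b ^ 2) := by
  have h := pp_bridge (n := L.n) (b := L.b) (s := L.s) (lam := L.lam) (η := L.η) (c := L.c)
    (x := L.x) hl hη hx hb hn hv S (t := 1 - T) (t' := 1 - T / 2) (by linarith) (by linarith)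
    (by linarith) hu0 hu1
  have e1 : ∀ (S : Finset (Fin L.n)) (t : ℝ),
      L.pp S t u = ppc L.n L.b L.vp L.s L.lam L.η L.c L.x S t u := fun _ _ => rfl
  rw [← e1, ← e1, ← e1] at h
  have hn' : (0 : ℝ) < L.n := Nat.cast_pos.2 hn
  have hb2 : 0 < L.b ^ 2 := by positivity
  have hm : 0 ≤ (L.n : ℝ) - S.card := by
    have := S.card_le_univ
    rw [Fintype.card_fin] at this
    have h3 : (S.card : ℝ) ≤ L.n := by exact_mod_cast this
    linarith
  have hp : 0 ≤ L.pp Finset.univ (1 - T / 2) u :=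
    H698.Q2_nonneg (b := L.b) (cB := H418.cb (1 - T / 2)) (cF := H418.cf L.vp u) (s := L.s)
      (c := L.c) (x := L.x) hl hη Finset.univ (Kset Finset.univ {true} {true})
  have hf : ffc L.n L.b L.vp L.s L.lam L.η L.c L.x Finset.univ (1 - T / 2) u ≤ L.n := by
    have := H442.Q1_le (n := L.n) (b := L.b) (cB := H698.cb (1 - T / 2)) (cF := H698.cf L.vp u)
      (s := L.s) (c := L.c) hl hη L.x Finset.univ (Kset Finset.univ {true} {true})
    rw [Finset.card_univ, Fintype.card_fin] at this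
    exact this
  have h4 : (L.n - S.card) / L.b ^ 2 * (u * L.vp) *
      ffc L.n L.b L.vp L.s L.lam L.η L.c L.x Finset.univ (1 - T / 2) u ≤
      (L.n - S.card) / L.b ^ 2 * (u * L.vp) * L.n :=
    mul_le_mul_of_nonneg_left hf (by positivity)
  have h5 : 2 * (L.n - S.card) / L.n * (1 - T / 2) * L.pp Finset.univ (1 - T / 2) u ≤
      2 * (L.n - S.card) / L.n * L.pp Finset.univ (1 - T / 2) u := by
    refine mul_le_mul_of_nonneg_right ?_ hp
    have : 0 ≤ 2 * ((L.n : ℝ) - S.card) / L.n := by positivity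
    nlinarith
  have h6 := h.trans (add_le_add (add_le_add le_rfl h5) h4)
  have h7 := mul_le_mul_of_nonneg_left h6 (show (0 : ℝ) ≤ 4 / L.n ^ 2 by positivity)
  unfold H418.Law.rr
  refine le_trans (le_of_eq ?_) (h7.trans (le_of_eq ?_))
  · field_simp
    ring
  · field_simp
    ring

end law

end Vale.Agent.P146.H30
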